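import Vale.Agent.P073.PK.Planes

/-!
# P073: averages of the energies of periodic families of segments

`famSum` is the weighted sum of the integrals over a countable union of lattice families of
segments; its average over the unit box of the origins is computed.
-/

namespace Vale.Agent.P073.LR560

open Set Filter Topology Metric MeasureTheory
open scoped ENNReal NNReal
open Vale.Agent.P073.HB Vale.Agent.P073.PK

variable {k : ℕ}

/-- Translation of the density. -/
theorem lintegral_translate (κ : (Fin k → ℝ) → ℝ≥0∞) (x : Fin k → ℝ) :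
    ∫⁻ y, κ (y + x) = ∫⁻ y, κ y := lintegral_add_right_eq_self κ x

theorem aemeasurable_translate {κ : (Fin k → ℝ) → ℝ≥0∞} (hκ : AEMeasurable κ) (x : Fin k → ℝ) :
    AEMeasurable fun y => κ (y + x) :=
  hκ.comp_quasiMeasurePreserving (measurePreserving_add_right volume x).quasiMeasurePreserving

/-- The sum over the lattice of the integrals over the segments `x + [0,1] w`. -/
noncomputable def segSum (κ : (Fin k → ℝ) → ℝ≥0∞) (n : Fin k → ℕ) (x w o : Fin k → ℝ) : ℝ≥0∞ :=
  ∑' z : Fin k → ℤ, ∫⁻ t in Ioc (0 : ℝ) 1, κ (vM o (fun i => 1 / (n i : ℝ)) z + (x + t • w))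

theorem segSum_eq (κ : (Fin k → ℝ) → ℝ≥0∞) (n : Fin k → ℕ) (x w o : Fin k → ℝ) :
    segSum κ n x w o = latSum (fun y => κ (y + x)) (fun i => 1 / (n i : ℝ)) w o := by
  unfold segSum latSum
  refine tsum_congr fun z => lintegral_congr fun t => ?_
  congr 1
  abel

theorem aemeasurable_segSum {κ : (Fin k → ℝ) → ℝ≥0∞} (hκ : AEMeasurable κ) (n : Fin k → ℕ)
    (x w : Fin k → ℝ) : AEMeasurable (segSum κ n x w) := by
  have e : segSum κ n x w = fun o => latSum (fun y => κ (y + x)) (fun i => 1 / (n i : ℝ)) w o :=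
    funext fun o => segSum_eq κ n x w o
  rw [e]
  exact aemeasurable_latSum (aemeasurable_translate hκ x) _ w

theorem lintegral_segSum {κ : (Fin k → ℝ) → ℝ≥0∞} (hκ : AEMeasurable κ) {n : Fin k → ℕ}
    (hn : ∀ i, 0 < n i) (x w : Fin k → ℝ) :
    ∫⁻ o in obox k 1, segSum κ n x w o = (∏ i, (n i : ℝ≥0∞)) * ∫⁻ y, κ y := by
  simp only [segSum_eq]
  rw [lintegral_latSum hn (aemeasurable_translate hκ x) w, lintegral_translate]

/-- The energy of a countable union of periodic families of segments. -/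
noncomputable def famSum {ι : Type*} (c : ι → ℝ≥0∞) (κ : ι → (Fin k → ℝ) → ℝ≥0∞)
    (n : ι → Fin k → ℕ) (x w : ι → Fin k → ℝ) (o : Fin k → ℝ) : ℝ≥0∞ :=
  ∑' e, c e * segSum (κ e) (n e) (x e) (w e) o

theorem aemeasurable_famSum {ι : Type*} [Countable ι] (c : ι → ℝ≥0∞)
    {κ : ι → (Fin k → ℝ) → ℝ≥0∞} (hκ : ∀ e, AEMeasurable (κ e)) (n : ι → Fin k → ℕ)
    (x w : ι → Fin k → ℝ) : AEMeasurable (famSum c κ n x w) := by
  unfold famSum
  exact AEMeasurable.tsum fun e => (aemeasurable_segSum (hκ e) _ _ _).const_mul _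

/-- **The average of the energy of periodic families of segments.** -/
theorem lintegral_famSum {ι : Type*} [Countable ι] (c : ι → ℝ≥0∞)
    {κ : ι → (Fin k → ℝ) → ℝ≥0∞} (hκ : ∀ e, AEMeasurable (κ e)) {n : ι → Fin k → ℕ}
    (hn : ∀ e i, 0 < n e i) (x w : ι → Fin k → ℝ) :
    ∫⁻ o in obox k 1, famSum c κ n x w o =
      ∑' e, c e * ((∏ i, (n e i : ℝ≥0∞)) * ∫⁻ y, κ e y) := by
  unfold famSum
  rw [lintegral_tsum fun e => ((aemeasurable_segSum (hκ e) _ _ _).const_mul _).restrict]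
  refine tsum_congr fun e => ?_
  rw [lintegral_const_mul'' _ (aemeasurable_segSum (hκ e) _ _ _).restrict,
    lintegral_segSum (hκ e) (hn e)]

/-- A sum over any set of segments is bounded by the sum over the whole families. -/
theorem sum_le_famSum {ι J : Type*} (c : ι → ℝ≥0∞) (κ : ι → (Fin k → ℝ) → ℝ≥0∞)
    (n : ι → Fin k → ℕ) (x w : ι → Fin k → ℝ) (o : Fin k → ℝ) {g : J → ι × (Fin k → ℤ)}
    (hg : Function.Injective g) :
    ∑' j, c (g j).1 * ∫⁻ t in Ioc (0 : ℝ) 1, κ (g j).1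
      (vM o (fun i => 1 / (n (g j).1 i : ℝ)) (g j).2 + (x (g j).1 + t • w (g j).1)) ≤
      famSum c κ n x w o := by
  unfold famSum segSum
  simp only [← ENNReal.tsum_mul_left]
  rw [← ENNReal.tsum_prod (f := fun e z => c e * ∫⁻ t in Ioc (0 : ℝ) 1, κ e
      (vM o (fun i => 1 / (n e i : ℝ)) z + (x e + t • w e)))]
  exact ENNReal.tsum_comp_le_tsum_of_injective hg
    (fun q : ι × (Fin k → ℤ) => c q.1 * ∫⁻ t in Ioc (0 : ℝ) 1, κ q.1
      (vM o (fun i => 1 / (n q.1 i : ℝ)) q.2 + (x q.1 + t • w q.1)))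

end Vale.Agent.P073.LR560
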